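import Vale.Agent.P144DE.Tw
import Vale.Agent.P144DQ.Wick
import Vale.Agent.P144DQ.Defs

/-!
The mixed correlations for the plus boundary condition, for energies at any places.
-/

namespace Vale.Agent.P144DE

open Finset Vale.Agent.P144 Vale.Agent.P144DQ
open Vale.Agent.P144.AL (Cn cnr ep fcs el Pf flat cenK)
open Vale.Agent.P144S (ce MM QQ Wf pl)
open Vale.Agent.P144S.F (ce_cnr sj ep_ce sj_sq cl lb lb_cons lb_nodup lb_even lb_prod QQ_lb wl ep4
  mem_lb)
open Vale.Agent.P144S.W (QQ_pos MM_pos)
open Vale.Agent.P144Y.F (Lw Lw_lin Lw_mon mon_eq pl_lin lin_agree)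

/-- The marked corners of an energy. -/
def cm (v : Site) (j : Fin 2) (b : Bool) : Cn × Bool := (ce v j b, decide (j = 1))

theorem ep4t (v w : Site) (i j : Fin 2) :
    sg (cm v i false) (cm w j false) * sg (cm v i true) (cm w j false) *
      (ep (ce v i false) (ce w j false) * ep (ce v i true) (ce w j false)) *
      (sg (cm v i false) (cm w j true) * sg (cm v i true) (cm w j true) *
        (ep (ce v i false) (ce w j true) * ep (ce v i true) (ce w j true))) = 1 := by
  by_cases h : v + dir i = w + dir j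
  · obtain ⟨a, b⟩ := v
    obtain ⟨c, d⟩ := w
    fin_cases i <;> fin_cases j <;> simp only [dir] at h <;> norm_num at h <;>
      obtain ⟨rfl, rfl⟩ := h <;> simp [sg, cm, ce, ep, dir]
  · have k : ∀ b b', sg (cm v i b) (cm w j b') = 1 := fun b b' =>
      sg_ne fun e => h (congrArg Prod.fst e)
    simp only [k, one_mul]
    exact ep4 v w i j h

variable {m : ℕ} (v : Fin m → Site) (j : Fin m → Fin 2)

/-- The marked corners of the labels. -/
def ct (x : Fin m × Bool) : Cn × Bool := cm (v x.1) (j x.1) x.2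

theorem el_tw (s : List (Fin m)) :
    tw ((lb s).map (ct v j)) * el ((lb s).map (cl v j)) = (s.map fun k => sj (j k)).prod := by
  induction s with
  | nil => exact one_mul _
  | cons k s ih =>
    have e : (((lb s).map (ct v j)).map (sg (ct v j (k, false)))).prod *
        (((lb s).map (ct v j)).map (sg (ct v j (k, true)))).prod *
        ((((lb s).map (cl v j)).map (ep (cl v j (k, false)))).prod *
        (((lb s).map (cl v j)).map (ep (cl v j (k, true)))).prod) = 1 := by
      simp only [List.map_map]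
      rw [← List.prod_map_mul, ← List.prod_map_mul, ← List.prod_map_mul, lb_prod]
      exact AL.list_prod_one _ _ fun l _ => ep4t _ _ _ _
    have e2 : sg (ct v j (k, false)) (ct v j (k, true)) = 1 :=
      sg_le (by simp only [ct, cm]; cases decide (j k = 1) <;> simp)
    simp only [lb_cons, List.map_cons, el, tw, List.prod_cons, e2, ← ih, ← ep_ce (v k) (j k)]
    unfold cl at e ⊢
    linear_combination (ep (ce (v k) (j k) false) (ce (v k) (j k) true) * tw ((lb s).map (ct v j)) *
      el ((lb s).map fun x => ce (v x.1) (j x.1) x.2)) * e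

/-- The kernel with the signs of the energies. -/
noncomputable def KT (P : Finset Site) (R : Multiset Site) (x y : Fin m × Bool) : ℝ :=
  wl j x * wl j y * (sg (ct v j x) (ct v j y) * Wf P R [cl v j x, cl v j y])

/-- The same on all labels. -/
noncomputable def KL (P : Finset Site) (R : Multiset Site) {n : ℕ} (a b : Lab n m) : ℝ :=
  a.elim (fun _ => 0) fun x => b.elim (fun _ => 0) (KT v j P R x)

variable {v j} {P : Finset Site} {s : List (Fin m)}

theorem base (hv : ∀ k ∈ s, v k + dir (j k) ∈ P) (R : Multiset Site) :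
    MM P (fcs ((lb s).map (cl v j)) + R) = MM P R * Pf (KT v j P R) (lb s) := by
  have h1 := wf_plus (P := P) R ((lb s).map (cl v j)) (fun c hc => by
    obtain ⟨x, a, rfl⟩ := List.mem_map.1 hc
    exact ⟨ce_cnr _ _ _, P144S.W.sub_Vx P (hv x.1 (mem_lb a))⟩)
    (by rw [List.length_map]; exact lb_even s)
  have h2 := Pf_tw (K := fun c c' => Wf P R [c, c']) (ok := fun c => c.1 ∈ cnr c.2)
    (fun x y a b c => add_eq_zero_iff_eq_neg.2 (P144S.W.Wf_swap P R a b c))
    ((lb s).map (ct v j)) fun c hc => by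
      obtain ⟨x, -, rfl⟩ := List.mem_map.1 hc
      exact ce_cnr _ _ _
  rw [List.map_map, AL.Pf_map] at h2
  have h3 : ((lb s).map (wl j)).prod = (s.map fun k => sj (j k)).prod := by
    rw [lb_prod]
    simp [wl]
  unfold KT
  rw [AL.Pf_scale (fun x y => sg (ct v j x) (ct v j y) * Wf P R [cl v j x, cl v j y]) (wl j) _
    (lb_even s), h3]
  refine Eq.trans ?_ (congrArg (fun z => _ * (_ * z)) (h2.trans (congrArg _ h1.symm)).symm)
  unfold Wf MM
  rw [QQ_lb, ← mul_div_assoc, ← mul_assoc (tw _), el_tw]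
  have h4 := AL.map_sq s (fun k => sj (j k)) fun k => sj_sq _
  have h5 := (QQ_pos P R).ne'
  have h6 := (QQ_pos P 0).ne'
  field_simp
  linear_combination (-QQ P (fcs ((lb s).map (cl v j)) + R) 0) * h4

theorem Lw_mixed (n : ℕ) (hv : ∀ k ∈ s, v k + dir (j k) ∈ P) {M : ℕ} (hP : P ⊆ P144Z.St.fb M)
    (R R' : Multiset Site) (hs : s.Nodup) (t : Fin m → ℝ) :
    Lw M P R' (fun σ => (R.map fun x => sp (σ x)).prod *
      (s.map fun k => sp (σ (v k)) * sp (σ (v k + dir (j k))) - t k).prod) =
      MM P (R + R') * Pf (cenK (KL v j P (R + R') (n := n)) lo hi t s) (flat lo hi s) := by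
  have hM := (MM_pos P (R + R')).ne'
  have e : ∀ s : List (Fin m), flat (lo (n := n)) hi s = (lb s).map .inr := fun s =>
    (AL.flat_map Sum.inr (fun k => (k, false)) (fun k => (k, true)) s).symm
  have h1 := AL.cen_pf (L := fun F => Lw M P R' F / MM P (R + R'))
    (fun f g c => by
      show Lw M P R' (fun σ => f σ - c * g σ) / _ = _
      rw [Lw_lin]
      ring)
    (fun k σ => sp (σ (v k)) * sp (σ (v k + dir (j k)))) t
    (fun σ => (R.map fun x => sp (σ x)).prod) lo hi (KL v j P (R + R') (n := n)) [] [] s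
    (by simpa [e] using (lb_nodup hs).map Sum.inr_injective) (fun s' hs' => by
      show Lw M P R' _ / _ = _
      rw [mon_eq, Lw_mon hP, add_assoc, base (fun k hk => hv k (hs'.subset hk)) (R + R'),
        mul_div_cancel_left₀ _ hM, List.nil_append, List.append_nil, e, AL.Pf_map]
      rfl)
  rw [div_eq_iff hM] at h1
  rw [h1, mul_comm, List.nil_append, List.append_nil]

theorem mixed (n : ℕ) (hv : ∀ k ∈ s, v k + dir (j k) ∈ P) {J : ℝ} (hJ : 0 < J) {T : Finset Site}
    (h1 : ∀ t ∈ T, id t ∉ P) (h2 : ∀ v ∉ P, ∃ t ∈ T, P144Y.Cn P v (id t)) (R : Multiset Site)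
    (hs : s.Nodup) (t : Fin m → ℝ) :
    pl J P (fun σ => (R.map fun x => sp (σ x)).prod *
      (s.map fun k => sp (σ (v k)) * sp (σ (v k + dir (j k))) - t k).prod) =
      ∑ S ∈ T.powerset, MM P (R + S.val.map id) / (∑ S ∈ T.powerset, MM P (S.val.map id)) *
        Pf (cenK (KL v j P (R + S.val.map id) (n := n)) lo hi t s) (flat lo hi s) := by
  obtain ⟨M, hP⟩ := P144S.K.exists_fb P
  rw [lin_agree (L' := fun F => (∑ S ∈ T.powerset, Lw M P (S.val.map id) F) /
    ∑ S ∈ T.powerset, MM P (S.val.map id)) (pl_lin J P) (fun f g c => by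
      simp only [Lw_lin, sum_sub_distrib, ← mul_sum]
      ring) (fun k σ => sp (σ (v k)) * sp (σ (v k + dir (j k)))) t s _ fun s' _ => by
      rw [mon_eq]
      simp only [Lw_mon hP]
      exact P144Y.K.skw J hJ P Site T id h1 h2 _]
  simp only [Lw_mixed n hv hP R _ hs t]
  rw [sum_div]
  exact sum_congr rfl fun S _ => mul_div_right_comm _ _ _

end Vale.Agent.P144DE
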