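import Vale.Agent.P144DE.Tw
import Vale.Agent.P144DQ.Wick
import Vale.Agent.P144DQ.Defs

/-!
The mixed correlations for the free boundary condition, for energies at any places.
-/

namespace Vale.Agent.P144DE

open Finset Vale.Agent.P144 Vale.Agent.P144DQ
open Vale.Agent.P144.AL (Cn cnr ep fcs sps el Pf flat cenK eLo eHi sk srcs Wf flat_cons)
open Vale.Agent.P144DC (en gb)

theorem tw_sq {γ : Type*} (l : List (γ × Bool)) : tw l * tw l = 1 := by
  induction l with
  | nil => exact one_mul _
  | cons c l ih =>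
    simp only [tw]
    linear_combination (tw l * tw l) * AL.map_sq l (sg c) (sg_sq c) + ih

theorem tw_left {γ : Type*} {p : List (γ × Bool)} (h : ∀ c ∈ p, c.2 = false) (l : List (γ × Bool)) :
    tw (p ++ l) = tw l := by
  induction p with
  | nil => rfl
  | cons c p ih =>
    rw [List.cons_append, tw, ih fun x a => h x (List.mem_cons_of_mem _ a),
      AL.list_prod_one _ _ fun _ _ => sg_le (Or.inl (h c (by simp))), one_mul]

theorem flat_prod {ι α : Type*} (e e' : ι → α) (g : α → ℝ) (s : List ι) :
    ((flat e e' s).map g).prod = (s.map fun k => g (e k) * g (e' k)).prod := by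
  induction s with
  | nil => rfl
  | cons k s ih => simp only [flat_cons, List.map_cons, List.prod_cons, ih, mul_assoc]

/-- The corners of an energy. -/
def cf (v : Site) (j : Fin 2) (b : Bool) : Cn := if b then eHi v j else eLo v

/-- The marked corners of an energy. -/
def cg (v : Site) (j : Fin 2) (b : Bool) : Cn × Bool := (cf v j b, decide (j = 0))

theorem cf_cnr (v : Site) (j : Fin 2) (b : Bool) : (cf v j b).1 ∈ cnr (cf v j b).2 := by
  cases b
  exacts [AL.eLo_cnr _, AL.eHi_cnr _ _]

theorem cf_face (v : Site) (j : Fin 2) (b : Bool) : (cf v j b).2 = v := by cases b <;> rfl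

theorem ep4f (v w : Site) (i j : Fin 2) :
    sg (cg v i false) (cg w j false) * sg (cg v i true) (cg w j false) *
      (sg (cg v i false) (cg w j true) * sg (cg v i true) (cg w j true)) *
      (ep (eLo v) (eLo w) * ep (eHi v i) (eLo w) *
        (ep (eLo v) (eHi w j) * ep (eHi v i) (eHi w j))) = 1 := by
  by_cases h : v = w
  · subst h
    obtain ⟨a, b⟩ := v
    fin_cases i <;> fin_cases j <;> simp [sg, cg, cf, eLo, eHi, ep, dir]
  · have k : ∀ b b', sg (cg v i b) (cg w j b') = 1 := fun b b' =>
      sg_ne fun e => h (by simpa only [cg, cf_face] using congrArg Prod.snd e)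
    simp only [k, one_mul]
    exact AL.ep_four v w i j h

variable {n m : ℕ} (x : Fin n → Site) (y : Fin m → Site) (j : Fin m → Fin 2)

/-- The marked corners of the labels. -/
def cF : Lab n m → Cn × Bool :=
  Sum.elim (fun i => ((x i, x i), false)) fun a => cg (y a.1) (j a.1) a.2

/-- The signs of the labels. -/
noncomputable def wF : Lab n m → ℝ :=
  Sum.elim (fun _ => 1) fun a => if a.2 then sk (srcs x) (y a.1) (j a.1) else 1

/-- The kernel with the signs of the energies. -/
noncomputable def KF (Λ : Finset Site) (a b : Lab n m) : ℝ :=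
  wF x y j a * wF x y j b *
    (sg (cF x y j a) (cF x y j b) * Wf Λ (fcs (srcs x)) [(cF x y j a).1, (cF x y j b).1])

theorem cF_cnr (a : Lab n m) : (cF x y j a).1.1 ∈ cnr (cF x y j a).1.2 := by
  cases a
  exacts [AL.mem_cnr.2 (Or.inl rfl), cf_cnr _ _ _]

variable {x y j} {s : List (Fin m)}

theorem el_twF (h : ∀ i, ∀ k ∈ s, x i ≠ y k) :
    tw (flat (fun k => cg (y k) (j k) false) (fun k => cg (y k) (j k) true) s) *
      el (srcs x ++ flat (fun k => eLo (y k)) (fun k => eHi (y k) (j k)) s) =
      el (srcs x) * (s.map fun k => sk (srcs x) (y k) (j k)).prod := by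
  induction s with
  | nil => simp [flat, tw]
  | cons k s ih =>
    have ih := ih fun i l a => h i l (List.mem_cons_of_mem _ a)
    have e : ((flat (fun k => cg (y k) (j k) false) (fun k => cg (y k) (j k) true) s).map
        (sg (cg (y k) (j k) false))).prod * ((flat (fun k => cg (y k) (j k) false)
        (fun k => cg (y k) (j k) true) s).map (sg (cg (y k) (j k) true))).prod *
        ((flat (fun k => eLo (y k)) (fun k => eHi (y k) (j k)) s).map
          fun z => ep (eLo (y k)) z * ep (eHi (y k) (j k)) z).prod = 1 := by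
      rw [← List.prod_map_mul, flat_prod, flat_prod, ← List.prod_map_mul]
      exact AL.list_prod_one _ _ fun l _ => ep4f _ _ _ _
    have e2 : sg (cg (y k) (j k) false) (cg (y k) (j k) true) = 1 :=
      sg_le (by simp only [cg]; cases decide (j k = 0) <;> simp)
    rw [flat_cons, flat_cons, AL.el_pair _ _ _ _ (AL.eLo_cnr _) (AL.eHi_cnr _ _) fun c hc => by
      obtain ⟨i, -, rfl⟩ := List.mem_map.1 hc
      exact ⟨AL.mem_cnr.2 (Or.inl rfl), fun e => h i k (by simp) (congrArg Prod.snd e),
        fun e => h i k (by simp) (congrArg Prod.snd e)⟩]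
    simp only [tw, List.map_cons, List.prod_cons, List.map_append, List.prod_append, e2]
    rw [mul_left_comm (el (srcs x)), ← ih, sk]
    linear_combination (ep (eLo (y k)) (eHi (y k) (j k)) * ((srcs x).map
      fun z => ep (eLo (y k)) z * ep (eHi (y k) (j k)) z).prod *
      tw (flat (fun k => cg (y k) (j k) false) (fun k => cg (y k) (j k) true) s) *
      el (srcs x ++ flat (fun k => eLo (y k)) (fun k => eHi (y k) (j k)) s)) * e

variable {J : ℝ} {Λ : Finset Site}

theorem baseF (hJ : 0 < J) (hx : ∀ i, x i ∈ Λ) (hy : ∀ k ∈ s, y k ∈ Λ ∧ y k + dir (j k) ∈ Λ)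
    (h : ∀ i, ∀ k ∈ s, x i ≠ y k) :
    gb J none Λ (fun σ => (∏ i, sp (σ (x i))) * (s.map fun k => en (y k) (j k) σ).prod) =
      H436.MM Λ (fcs (srcs x)) * el (srcs x) *
        Pf (KF x y j Λ) ((List.finRange n).map .inl ++ flat lo hi s) := by
  set L : List (Lab n m) := (List.finRange n).map .inl ++ flat lo hi s with hL
  set l := srcs x ++ flat (fun k => eLo (y k)) (fun k => eHi (y k) (j k)) s with hl
  have e0 : L.map (cF x y j) = (List.finRange n).map (fun i => ((x i, x i), false)) ++
      flat (fun k => cg (y k) (j k) false) (fun k => cg (y k) (j k) true) s := by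
    rw [hL, List.map_append, List.map_map, AL.flat_map]
    rfl
  have e1 : (L.map (cF x y j)).map Prod.fst = l := by
    rw [e0, List.map_append, List.map_map, AL.flat_map]
    rfl
  have hd : ∀ c ∈ l, c.1 ∈ cnr c.2 ∧ c.1 ∈ Λ := fun c hc => by
    rcases List.mem_append.1 hc with a | a
    · obtain ⟨i, -, rfl⟩ := List.mem_map.1 a
      exact ⟨AL.mem_cnr.2 (Or.inl rfl), hx i⟩
    · obtain ⟨k, b, a⟩ := List.mem_flatMap.1 a
      simp only [List.mem_cons, List.not_mem_nil, or_false] at a
      rcases a with rfl | rfl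
      exacts [⟨AL.eLo_cnr _, (hy k b).1⟩, ⟨AL.eHi_cnr _ _, (hy k b).2⟩]
  have hd' : ∀ v ∈ sps l, v ∈ Λ := fun v hv => by
    obtain ⟨c, hc, rfl⟩ := List.mem_map.1 (Multiset.mem_coe.1 hv)
    exact (hd c hc).2
  have e2 : (fun σ : Config => (∏ i, sp (σ (x i))) * (s.map fun k => en (y k) (j k) σ).prod) =
      fun σ => ((sps l).map fun v => sp (σ v)).prod := by
    funext σ
    rw [sps, Multiset.map_coe, Multiset.prod_coe, List.map_map, hl, List.map_append,
      List.prod_append, flat_prod, srcs, List.map_map, P144DC.prod_fin]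
    rfl
  have e3 : l.length = L.length := by rw [← e1, List.length_map, List.length_map]
  rw [e2, gb, AL.gibbs_spn hJ hd']
  by_cases he : Even L.length
  swap
  · rw [AL.Pf_odd _ _ he, AL.QQ_odd 0 hd' (by
      rw [sps, Multiset.coe_card, List.length_map, e3]
      exact Nat.not_even_iff_odd.1 he), zero_div, mul_zero]
  have h1 := wf_free (fcs (srcs x)) l hd (e3 ▸ he)
  have h2 := Pf_tw (K := fun c c' => Wf Λ (fcs (srcs x)) [c, c']) (ok := fun c => c.1 ∈ cnr c.2)
    (fun c c' a b d => by
      have := AL.ep_anti a b d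
      have e : ep c c' = -ep c' c := by
        linear_combination (-ep c c') * AL.ep_sq c' c + ep c' c * this
      simp only [Wf, el, AL.fcs_cons, AL.sps_cons, List.map_cons, List.map_nil, List.prod_cons,
        List.prod_nil, e, Multiset.cons_swap c.1, Multiset.cons_swap c.2]
      ring) (L.map (cF x y j)) fun c hc => by
      obtain ⟨a, -, rfl⟩ := List.mem_map.1 hc
      exact cF_cnr x y j a
  rw [e1, ← h1, AL.Pf_map, e0, tw_left (by simp)] at h2
  have h3 : (L.map (wF x y j)).prod = (s.map fun k => sk (srcs x) (y k) (j k)).prod := by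
    rw [hL, List.map_append, List.prod_append, List.map_map, flat_prod,
      AL.list_prod_one _ (wF x y j ∘ Sum.inl) fun _ _ => rfl, one_mul]
    simp [wF, lo, hi]
  have h4 := P144T.E.Wf_list (Λ := Λ) (srcs x) y j s (N := 0) (l := l) (by simp [hl])
  have h5 := el_twF (j := j) h
  rw [← hl, ← h3] at h5
  unfold KF
  rw [AL.Pf_scale (fun a b => sg (cF x y j a) (cF x y j b) *
    Wf Λ (fcs (srcs x)) [(cF x y j a).1, (cF x y j b).1]) _ _ he, h2, h4, AL.SG, List.map_nil,
    List.prod_nil, one_mul, mul_assoc, mul_assoc, ← mul_assoc (el (srcs x)), ← h5]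
  linear_combination (-(H436.MM Λ (fcs (srcs x)) * el l * Wf Λ (fcs (srcs x)) l)) *
    tw_sq (flat (fun k => cg (y k) (j k) false) (fun k => cg (y k) (j k) true) s)

/-- The centred mixed correlations. -/
theorem mixF (hJ : 0 < J) (hx : ∀ i, x i ∈ Λ) (hy : ∀ k ∈ s, y k ∈ Λ ∧ y k + dir (j k) ∈ Λ)
    (h : ∀ i, ∀ k ∈ s, x i ≠ y k) (hs : s.Nodup) (t : Fin m → ℝ) :
    gb J none Λ (fun σ => (∏ i, sp (σ (x i))) * (s.map fun k => en (y k) (j k) σ - t k).prod) =
      H436.MM Λ (fcs (srcs x)) * el (srcs x) *
        Pf (cenK (KF x y j Λ) lo hi t s) ((List.finRange n).map .inl ++ flat lo hi s) := by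
  have hM : H436.MM Λ (fcs (srcs x)) * el (srcs x) ≠ 0 :=
    mul_ne_zero (div_pos (AL.QQ_pos _ _) (AL.QQ_pos _ _)).ne' fun e => by
      simpa [e] using AL.el_sq (srcs x)
  have e : flat (lo (n := n)) hi s = (P144S.F.lb s).map .inr :=
    (AL.flat_map Sum.inr (fun k => (k, false)) (fun k => (k, true)) s).symm
  have h1 := AL.cen_pf (L := fun F => gb J none Λ F / (H436.MM Λ (fcs (srcs x)) * el (srcs x)))
    (fun f g c => by
      show gb J none Λ (fun σ => f σ - c * g σ) / _ = _
      rw [gb, AL.gibbs_lin hJ]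
      ring)
    (fun k => en (y k) (j k)) t (fun σ => ∏ i, sp (σ (x i))) lo hi (KF x y j Λ)
    ((List.finRange n).map .inl) [] s (by
      rw [List.append_nil, e]
      exact ((List.nodup_finRange n).map Sum.inl_injective).append
        ((P144S.F.lb_nodup hs).map Sum.inr_injective) (by simp [List.disjoint_left]))
    (fun s' hs' => by
      show gb J none Λ _ / _ = _
      rw [baseF hJ hx (fun k a => hy k (hs'.subset a)) fun i k a => h i k (hs'.subset a),
        mul_div_cancel_left₀ _ hM, List.append_nil])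
  rw [div_eq_iff hM] at h1
  rw [h1, mul_comm, List.append_nil]

end Vale.Agent.P144DE
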