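import Vale.Agent.P144DE.Form
import Vale.Agent.P144D.MD.Main

/-!
The mixed correlations for the plus boundary condition are mixtures of Pfaffians.
-/

namespace Vale.Agent.P144DE

open Finset Vale.Agent.P144 Vale.Agent.P144DQ Vale.Agent.P144DC Vale.Agent.P144P
open Vale.Agent.P144.AL (Cn cnr Pf)
open Vale.Agent.P144Z (zd)
open Vale.Agent.P144S (ce MM Wf Vx ih iv)
open Vale.Agent.P144S.F (ce_cnr sj cl wl)
open Vale.Agent.P144S.W (MM_pos mem_Vx)

/-- Removing isolated cells does not change the graph. -/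
theorem QQ_sdiff {P X : Finset Site} (h : ∀ x ∈ X, ∀ v, zd v x = 1 → v ∈ P \ X) :
    P144S.QQ (P \ X) = P144S.QQ P := by
  have k : ∀ x y : Site, zd y x = 1 → ((x ∈ P \ X ∨ y ∈ P \ X) ↔ (x ∈ P ∨ y ∈ P)) :=
    fun x y e => ⟨Or.imp (fun a => (mem_sdiff.1 a).1) fun a => (mem_sdiff.1 a).1, fun a => by
      by_cases c : x ∈ X
      · exact Or.inr (h x c y e)
      by_cases c' : y ∈ X
      · exact Or.inl (h y c' x (by rwa [zd_symm]))
      exact a.imp (fun a => mem_sdiff.2 ⟨a, c⟩) fun a => mem_sdiff.2 ⟨a, c'⟩⟩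
  have e1 : Vx (P \ X) = Vx P := by
    ext x
    rw [mem_Vx, mem_Vx, ← or_assoc, ← or_assoc (a := x ∈ P), k x _ (by simp [zd]),
      k (x.1, x.2 - 1) _ (by simp [zd])]
  have e2 : ih (P \ X) = ih P := funext fun x => if_congr (k x _ (by simp [zd])) rfl rfl
  have e3 : iv (P \ X) = iv P := funext fun x => if_congr (k x _ (by simp [zd])) rfl rfl
  funext R A
  rw [P144S.QQ, P144S.QQ, e1, e2, e3]

theorem zd_ce (v : Site) (j : Fin 2) (b : Bool) : zd (ce v j b).2 v ≤ 1 := by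
  unfold ce
  split_ifs
  exacts [(zd_dir _ _).le, (zd_self _).trans_le zero_le_one]

theorem zd_three {u v u' v' : Site} (h : zd u' u ≤ 1) (h' : zd v' v ≤ 1) :
    zd u v + 1 ≤ 3 * (zd u' v' + 1) := by
  have a := P144F.zd_tri u u' v
  have b := P144F.zd_tri u' v' v
  rw [zd_symm u u'] at a
  omega

theorem rep_plus {J : ℝ} (hJ : 0 < J) : Rep J (some fun _ => true) := by
  obtain ⟨C, τ, hC, t0, hk⟩ := ker3
  set w : Fin 2 → Bool → ℝ := fun j b => if b then sj j else 1 with hw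
  have w1 : ∀ j b, |w j b| = 1 := fun j b => by
    simp only [hw, sj]
    split_ifs <;> simp
  refine ⟨3 * C, 160001, fun a a' => w a.2.1 a.2.2 * w a'.2.1 a'.2.2 *
    (sg (cm a.1 a.2.1 a.2.2) (cm a'.1 a'.2.1 a'.2.2) *
      τ (ce a.1 a.2.1 a.2.2) (ce a'.1 a'.2.1 a'.2.2)), fun a a' => ?_, fun n => ?_⟩
  · rw [abs_mul, abs_mul, abs_mul, w1, w1, sg_abs, one_mul, one_mul, one_mul]
    refine (t0 _ _ (ce_cnr _ _ _)).trans ?_
    have a3 : (zd a.1 a'.1 : ℝ) + 1 ≤
        3 * (zd (ce a.1 a.2.1 a.2.2).2 (ce a'.1 a'.2.1 a'.2.2).2 + 1) := by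
      exact_mod_cast zd_three (zd_ce a.1 a.2.1 a.2.2) (zd_ce a'.1 a'.2.1 a'.2.2)
    rw [div_le_div_iff₀ (by positivity) (by positivity)]
    nlinarith
  obtain ⟨D, D0, hD⟩ := P144Z.MD.spin_decay hJ n
  refine ⟨D * 2 ^ ((n : ℝ) / 8) + 2 * C, fun m P x y j T r hr hF => ?_⟩
  obtain ⟨U, u1, u2⟩ := reps P
  have xi : Function.Injective x := fun i i' e => by_contra fun c => by
    have := hF.xx i i' c
    rw [e, zd_self] at this
    omega
  set X : Finset Site := univ.map ⟨x, xi⟩ with hX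
  have mX : ∀ {v}, v ∈ X → ∃ i, x i = v := fun h => by simpa [hX] using h
  have eX : ∀ σ : Config, ∏ i, sp (σ (x i)) = (X.val.map fun v => sp (σ v)).prod := fun σ =>
    (prod_map univ ⟨x, xi⟩ fun v => sp (σ v)).symm
  have Z : 0 < ∑ S ∈ U.powerset, MM P (S.val.map id) :=
    sum_pos (fun _ _ => MM_pos _ _) ⟨∅, by simp⟩
  have r0 : (0 : ℝ) < (r - 1 : ℕ) := by exact_mod_cast (by omega)
  have r1 : (r : ℝ) ≤ 2 * (r - 1 : ℕ) := by exact_mod_cast (by omega)
  refine ⟨U.powerset, fun S => MM P (X.val + S.val.map id) / ∑ S ∈ U.powerset, MM P (S.val.map id),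
    [], fun S => KL y j P (X.val + S.val.map id), List.nodup_nil, ?_, fun S hS => ⟨by simp, by simp,
      fun k a l b => ?_⟩, fun s h1 h2 t => ?_⟩
  · have a1 := hD (r - 1) (by omega) (some fun _ => true) P X (by simp [hX])
      (fun u a v b c => by
        obtain ⟨i, rfl⟩ := mX a
        obtain ⟨i', rfl⟩ := mX b
        have := hF.xx i i' fun e => c (by rw [e])
        omega) fun u a v b => by
        obtain ⟨i, rfl⟩ := mX a
        exact hF.hx i v (by omega)
    have a2 := (P144Y.K.skw J hJ P Site U id u1 u2 X.val).symm.trans_le ((le_abs_self _).trans a1)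
    rw [sum_congr rfl fun S _ => abs_of_pos (div_pos (MM_pos _ _) Z), ← sum_div]
    have a3 : (r : ℝ) ^ ((n : ℝ) / 8) ≤ 2 ^ ((n : ℝ) / 8) * ((r - 1 : ℕ) : ℝ) ^ ((n : ℝ) / 8) := by
      rw [← Real.mul_rpow (by norm_num) r0.le]
      exact Real.rpow_le_rpow (Nat.cast_nonneg _) r1 (by positivity)
    refine (mul_le_mul a2 a3 (by positivity) (by positivity)).trans ?_
    rw [mul_mul_mul_comm, ← Real.rpow_add r0, neg_add_cancel, Real.rpow_zero]
    linarith
  · have e := QQ_sdiff (P := P) (X := X) fun u a v b => by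
      obtain ⟨i, rfl⟩ := mX a
      refine mem_sdiff.2 ⟨hF.hx i v (by omega), fun c => ?_⟩
      obtain ⟨i', rfl⟩ := mX c
      have := hF.xx i' i fun e => by rw [e, zd_self] at b; omega
      omega
    have ks := ks_plus (P := P \ X) (R := X.val + S.val.map id) fun f hf c =>
      (Multiset.mem_add.1 hf).elim (mem_sdiff.1 c).2 fun d => by
        obtain ⟨z, a, rfl⟩ := Multiset.mem_map.1 d
        exact u1 z (mem_powerset.1 hS a) (mem_sdiff.1 c).1
    have bl : ∀ k ∈ T, ∀ v, zd v (y k) ≤ r - 1 → v ∈ P \ X := fun k a v b =>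
      mem_sdiff.2 ⟨hF.hy k a v (by omega), fun c => by
        obtain ⟨i, rfl⟩ := mX c
        have := hF.xy i k a
        omega⟩
    set η := if 400 * zd (y k) (y l) ≤ r - 1 then
      gg (fun f => f.2 ≤ (y l).2) (X.val + S.val.map id) (y l + dir (j l)).1 *
        gg (fun f => f.2 ≤ (y l).2) (X.val + S.val.map id) (y k + dir (j k)).1 else 1 with hη
    have h2 : η * η = 1 := by
      rw [hη]
      split_ifs
      · rw [mul_mul_mul_comm, gg_sq, gg_sq, one_mul]
      · exact one_mul _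
    refine ⟨η, h2, ?_, fun c c' => ?_⟩
    · rintro rfl
      rw [hη, if_pos (by simp [zd_self]), gg_sq]
    have h3 := hk _ _ _ ks (ce (y k) (j k) c) (ce (y l) (j l) c') (y l) (y k) (r - 1)
      (ce_cnr _ _ _) (ce_cnr _ _ _) (zd_ce _ _ _) (zd_ce _ _ _) (by omega) (bl l b) (bl k a)
    simp only [Wf, e] at h3
    have h4 : KL y j P (X.val + S.val.map id) (n := n) (.inr (k, c)) (.inr (l, c')) -
        η * (w (j k) c * w (j l) c' * (sg (cm (y k) (j k) c) (cm (y l) (j l) c') *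
          τ (ce (y k) (j k) c) (ce (y l) (j l) c'))) = w (j k) c * w (j l) c' *
        sg (cm (y k) (j k) c) (cm (y l) (j l) c') * η * (η * Wf P (X.val + S.val.map id)
          [ce (y k) (j k) c, ce (y l) (j l) c'] - τ (ce (y k) (j k) c) (ce (y l) (j l) c')) := by
      simp only [KL, Sum.elim_inr, KT, wl, ct, cl, hw]
      linear_combination (-((if c then sj (j k) else 1) * (if c' then sj (j l) else 1) *
        sg (cm (y k) (j k) c) (cm (y l) (j l) c') * Wf P (X.val + S.val.map id)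
          [ce (y k) (j k) c, ce (y l) (j l) c'])) * h2
    rw [h4, abs_mul, abs_mul, abs_mul, abs_mul, w1, w1, sg_abs, abs_eq_abs.2
      (mul_self_eq_one_iff.1 h2), abs_one, one_mul, one_mul, one_mul, one_mul]
    refine h3.trans ?_
    rw [div_le_div_iff₀ r0 (by exact_mod_cast (by omega))]
    have : 0 ≤ D * 2 ^ ((n : ℝ) / 8) := by positivity
    nlinarith
  · simp only [eX]
    exact mixed n (fun k a => hF.hy k (h2 k a) _ (by rw [zd_dir]; omega)) hJ u1 u2 X.val h1 t

end Vale.Agent.P144DE
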