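import Vale.Agent.P144DQ.Pf

/-!
Pfaffians with a twisted sign at repeated elements.
-/

namespace Vale.Agent.P144DE

open Vale.Agent.P144.AL Vale.Agent.P144DQ

variable {α γ : Type*}

theorem perm_zero {f : List α → ℝ} {ok : α → Prop}
    (h : ∀ p s x y, ok x → ok y → x ≠ y → f (p ++ x :: y :: s) = -f (p ++ y :: x :: s))
    {l l' : List α} (hp : l.Perm l') (hl : ∀ c ∈ l, ok c) (p : List α) (h0 : f (p ++ l) = 0) :
    f (p ++ l') = 0 := by
  induction hp generalizing p with
  | nil => exact h0
  | cons x _ ih =>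
    have := ih (fun c hc => hl c (List.mem_cons_of_mem _ hc)) (p ++ [x]) (by simpa using h0)
    simpa using this
  | swap x y s =>
    by_cases e : x = y
    · rwa [e] at h0 ⊢
    · rw [h p s x y (hl x (by simp)) (hl y (by simp)) e, h0, neg_zero]
  | trans a _ ih ih' => exact ih' (fun c hc => hl c (a.symm.subset hc)) p (ih hl p h0)

open Classical in
/-- The sign of two marked elements. -/
noncomputable def sg (x y : γ × Bool) : ℝ :=
  if x.1 = y.1 ∧ x.2 = true ∧ y.2 = false then -1 else 1

theorem sg_sq (x y : γ × Bool) : sg x y * sg x y = 1 := by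
  unfold sg
  split_ifs <;> norm_num

theorem sg_abs (x y : γ × Bool) : |sg x y| = 1 := by
  unfold sg
  split_ifs <;> simp

theorem sg_ne {x y : γ × Bool} (h : x.1 ≠ y.1) : sg x y = 1 := if_neg fun c => h c.1

theorem sg_le {x y : γ × Bool} (h : x.2 = false ∨ y.2 = true) : sg x y = 1 :=
  if_neg fun c => by simp [c.2.1, c.2.2] at h

theorem sg_anti {x y : γ × Bool} (h : x.1 = y.1) (h' : x ≠ y) : sg x y = -sg y x := by
  obtain ⟨a, b⟩ := x
  obtain ⟨c, d⟩ := y
  obtain rfl : a = c := h
  cases b <;> cases d <;> simp [sg] at h' ⊢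

/-- The sign of a list of marked elements. -/
noncomputable def tw : List (γ × Bool) → ℝ
  | [] => 1
  | c :: l => (l.map (sg c)).prod * tw l

theorem tw_two (p s : List (γ × Bool)) (x y : γ × Bool) :
    tw (p ++ x :: y :: s) = sg x y * sg y x * tw (p ++ y :: x :: s) := by
  induction p with
  | nil =>
    simp only [List.nil_append, tw, List.map_cons, List.prod_cons]
    linear_combination (-(sg x y * (s.map (sg x)).prod * (s.map (sg y)).prod * tw s)) * sg_sq y x
  | cons c p ih =>
    simp only [List.cons_append, tw, ih, List.map_append, List.map_cons, List.prod_append,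
      List.prod_cons]
    ring

theorem tw_one {l : List (γ × Bool)} (h : ∀ x y, [x, y].Sublist l → sg x y = 1) : tw l = 1 := by
  induction l with
  | nil => rfl
  | cons c l ih =>
    rw [tw, ih fun x y a => h x y (a.cons c), mul_one]
    refine List.prod_eq_one fun z hz => ?_
    obtain ⟨y, a, rfl⟩ := List.mem_map.1 hz
    exact h c y (List.cons_sublist_cons.2 (List.singleton_sublist.2 a))

/-- The Pfaffian of the twisted kernel. -/
theorem Pf_tw {K : γ → γ → ℝ} {ok : γ → Prop}
    (hK : ∀ x y, ok x → ok y → x ≠ y → K x y + K y x = 0) (l : List (γ × Bool))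
    (hl : ∀ c ∈ l, ok c.1) :
    Pf (fun x y => sg x y * K x.1 y.1) l = tw l * Pf K (l.map Prod.fst) := by
  have hp := List.filter_append_perm (fun c : γ × Bool => !c.2) l
  refine sub_eq_zero.1 (perm_zero (f := fun l => Pf (fun x y => sg x y * K x.1 y.1) l -
    tw l * Pf K (l.map Prod.fst)) (ok := fun c => ok c.1) (fun p s x y a b c => ?_) hp
    (fun c hc => hl c (hp.subset hc)) [] ?_)
  · have e1 := Pf_swap (fun x y : γ × Bool => sg x y * K x.1 y.1) x y p s
    have e2 := Pf_swap K x.1 y.1 (p.map Prod.fst) (s.map Prod.fst)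
    simp only [List.map_append, List.map_cons, tw_two p s x y]
    by_cases e : x.1 = y.1
    · rw [sg_anti e c, e] at e1 ⊢
      linear_combination e1 + (tw (p ++ y :: x :: s) *
        Pf K (p.map Prod.fst ++ y.1 :: y.1 :: s.map Prod.fst)) * sg_sq y x
    · rw [sg_ne e, sg_ne (Ne.symm e)] at e1 ⊢
      rw [hK _ _ a b e] at e2
      linear_combination e1 - tw (p ++ y :: x :: s) * e2 +
        Pf (fun x y : γ × Bool => sg x y * K x.1 y.1) (p ++ s) * hK _ _ a b e
  · have k : ∀ x y, [x, y].Sublist (l.filter (fun c => !c.2) ++ l.filter fun c => !!c.2) →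
        sg x y = 1 := fun x y h => sg_le (by
      obtain ⟨l1, l2, a, b, c⟩ := List.sublist_append_iff.1 h
      rcases l1 with _ | ⟨u, l1⟩
      · have := (List.mem_filter.1 (c.subset (show y ∈ l2 by rw [← show [x, y] = l2 from a]; simp))).2
        exact Or.inr (by simpa using this)
      · have := (List.mem_filter.1 (b.subset (show x ∈ u :: l1 by
          simp [(List.cons.inj a).1]))).2
        exact Or.inl (by simpa using this))
    rw [List.nil_append, tw_one k, one_mul, Pf_map, sub_eq_zero]
    exact Pf_congr _ fun x y h => by rw [k x y h, one_mul]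

end Vale.Agent.P144DE
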